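import Vale.Agent.P167.H167.BAD.Defs
import Vale.Agent.P167.H174.BD.HistB
import Vale.Agent.P167.H437Q.Ret
import Vale.Agent.P167.H446.G.Asm

/-!
# P167, general `q`, [BAD]: combination of the weights

`bad_of` : the weight of the bad histories, from the inclusion `P_inc` and `P_b3`.
-/

set_option autoImplicit false

namespace Vale.Agent.P167.H167.BAD

open Filter Topology Set
open Vale.Agent.P167.E6 Vale.Agent.P167.E2
open Vale.Agent.P153.M1 (Expl)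
open Vale.Agent.P167.QT
open Vale.Agent.P167.H192 (ro)
open Vale.Agent.P167.H411 (exn Set6)
open Vale.Agent.P167.H174 (bc)
open Vale.Agent.P167.H718 (Dq)
open Vale.Agent.P167.H72.SD (dk om NSup NSlo Ff)
open Vale.Agent.P167.H713.Q (Cfl)
open Vale.Agent.P167.H446.G
open Vale.Agent.P167.H174.CT (NearC thk rep T32 Far Hist exn_fin exn_w bad_small2)
open Vale.Agent.P167.H174.BD (P_b3 P_ret Ret)

variable {Φ : (ℝ × ℝ) ≃ₜ (ℝ × ℝ)} {ψ : ℂ → ℂ} {δ : ℕ → ℝ} {N k : ℕ → ℕ}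
  {p : ∀ n, ZMod (N n) → ℤ × ℤ} {S : ℕ → Finset (ℤ × ℤ)} {ψn : ℕ → ℂ → ℂ}

/-- The event depends on the history only. -/
theorem hist_E (C : Cst) (r r' s r₃ : ℝ) {m : ℕ} (hp : IsPolygon (p m)) (hS : Encloses (p m) (S m))
    (hk : k m < N m) {κ : Hst → ℕ} (hκ : (exn δ N k p S ψn m).StopIx κ) (c : Bool) :
    Hist (exn δ N k p S ψn m) κ fun A =>
      {ω : Cfg | ¬ NCa Φ (p m) (k m) (S m) (δ m) r' s r₃ A (κ A) ∧
        ω ∈ NSc C (p m) (k m) (S m) (δ m) r s A (κ A) c} := by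
  intro A hA A' hA' h
  have hA1 : A ⊆ edges (S m) := (H411.mem_Qc (p := p m) (k := k m) (δ := δ m)).1 hA
  have hA1' : A' ⊆ edges (S m) := (H411.mem_Qc (p := p m) (k := k m) (δ := δ m)).1 hA'
  have h' : ∀ i ≤ κ A, run (p m) (k m) A' (i - 1) = run (p m) (k m) A (i - 1) := h
  have hκ' : κ A' = κ A := hκ A hA A' hA' h
  have e1 : NCa Φ (p m) (k m) (S m) (δ m) r' s r₃ A' (κ A') ↔
      NCa Φ (p m) (k m) (S m) (δ m) r' s r₃ A (κ A) := by
    rw [hκ']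
    unfold NCa
    refine exists_congr fun z => and_congr_right fun _ => exists_congr fun c => exists_congr
      fun u => exists_congr fun w => ?_
    exact H174.BD.Cfl_agree hp hS hk hA1 hA1' h'
  have e2 : NSc C (p m) (k m) (S m) (δ m) r s A' (κ A') c =
      NSc C (p m) (k m) (S m) (δ m) r s A (κ A) c := by
    unfold NSc bad
    cases c
    · simp only [Bool.false_eq_true, if_false]
      exact H174.BD.hist_lo hp hS hk hκ false _ _ _ A hA A' hA' h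
    · simp only [if_true]
      exact H174.BD.hist_up hp hS hk hκ true _ _ _ A hA A' hA' h
  ext ω
  simp only [Set.mem_ofPred_eq]
  rw [e1, e2]

/-- **[BAD]** The weight of the bad histories. -/
theorem bad_of {μ : ℝ} (h0 : 0 < μ) (h1 : μ < Real.pi / 3) (H : Set6 Φ ψ δ N k p S ψn) (C : Cst)
    (hinc : P_inc Φ C δ N k p S ψn) (hb3 : P_b3 Φ δ N k p S) : I_bad μ C δ N k p S ψn := by
  classical
  have hpi := Real.pi_pos
  have hQ : 1 ≤ 2 * Real.cos μ := by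
    have h2 : Real.cos (Real.pi / 3) ≤ Real.cos μ :=
      Real.cos_le_cos_of_nonneg_of_le_pi h0.le (by linarith) h1.le
    rw [Real.cos_pi_div_three] at h2
    linarith
  have hQ2 : 2 * Real.cos μ ≤ 2 := by
    have := Real.cos_le_one μ
    linarith
  have hq1 : 1 ≤ (2 * Real.cos μ) ^ 2 := by nlinarith
  have hq4 : (2 * Real.cos μ) ^ 2 ≤ 4 := by nlinarith
  have hq0 : 0 < (2 * Real.cos μ) ^ 2 := by linarith
  have hsq : √((2 * Real.cos μ) ^ 2) = 2 * Real.cos μ := Real.sqrt_sq (by linarith)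
  have hret : P_ret Φ δ N k p S ψn ((2 * Real.cos μ) ^ 2) :=
    H437Q.Ret.p_ret hq1 hq4 H.appr ψn
  intro r η hr hη ε' hε'
  obtain ⟨K, hK8, hK⟩ := bad_small2 hq1 hq4
  obtain ⟨r', hr', hinc⟩ := hinc r hr
  obtain ⟨r₁, hr₁, hr₁', hb3⟩ := hb3 r' hr'
  obtain ⟨r₂, hr₂, hret⟩ := hret r₁ hr₁ hr₁' (ε' / 3) (by positivity)
  obtain ⟨r₃, hr₃, s₁, hs₁, hb3⟩ := hb3 r₂ hr₂
  obtain ⟨ρ, L, hρ, hL, hinc⟩ := hinc r₃ hr₃
  obtain ⟨R₁, hR₁, hK⟩ := hK Φ δ N k p S H.appr ρ L hρ hL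
  obtain ⟨R₂, hR₂, hR₂₁, hinc⟩ := hinc K R₁ hK8 hR₁
  obtain ⟨η', hη', hK⟩ := hK R₂ hR₂ hR₂₁ (min η (ε' / 3)) (by positivity)
  obtain ⟨s₂, hs₂, hinc⟩ := hinc η' hη'
  refine ⟨min s₁ s₂, by positivity, fun s hs hss => ?_⟩
  filter_upwards [hret, hb3 s hs (hss.trans (min_le_left _ _)), hK,
    hinc s hs (hss.trans (min_le_right _ _))] with n g1 g2 g3 g4 κ hκ
  obtain ⟨Z, col, hZ, hcov, g3⟩ := g3
  obtain ⟨a1, a2, a3, a4, a5⟩ := H.appr.1 n
  have hf : (exn δ N k p S ψn n).C.Finite := exn_fin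
  have hw : ∀ A ∈ (exn δ N k p S ψn n).C,
      0 < QE.wq ((2 * Real.cos μ) ^ 2) (N n) (p n) (k n) (S n) A :=
    exn_w (δ := δ) (N := N) (k := k) (p := p) (S := S) (ψn := ψn) (n := n) hq0
  have hbef : ∀ A ∈ (exn δ N k p S ψn n).C, Bef (exn δ N k p S ψn n) C.T C.R A (κ A) :=
    fun A hA => ⟨hA, hκ.2 A hA⟩
  have key : ∀ c : Bool, QE.ExW (exn δ N k p S ψn n).C
      (QE.wq ((2 * Real.cos μ) ^ 2) (N n) (p n) (k n) (S n))
      ({A | min η (ε' / 3) < FK.Pr (2 * Real.cos μ) (dk (p n) (k n) (S n) A (κ A))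
        (om (p n) (k n) A) {ω : Cfg | ¬ NCa Φ (p n) (k n) (S n) (δ n) r' s r₃ A (κ A) ∧
          ω ∈ NSc C (p n) (k n) (S n) (δ n) r s A (κ A) c}}.indicator 1) ≤ ε' / 3 := by
    intro c
    have h5 := g3 ψn κ hκ.1 _ (hist_E (Φ := Φ) C r r' s r₃ a4 a5 a3 hκ.1 c) fun A hA hE => by
      have hA' : A ∈ (exn δ N k p S ψn n).C :=
        (H411.mem_Qc (p := p n) (k := k n) (δ := δ n)).2 hA
      exact g4 Z col hZ hcov A (κ A) (hbef A hA') hE.1 c hE.2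
    rw [hsq] at h5
    exact h5.trans (min_le_right _ _)
  have hle : ∀ A ∈ (exn δ N k p S ψn n).C,
      ({A | ¬ ∀ c, prNS μ C (p n) (k n) (S n) (δ n) r s A (κ A) c ≤ η}.indicator (1 : Hst → ℝ)) A ≤
      (({A | min η (ε' / 3) < FK.Pr (2 * Real.cos μ) (dk (p n) (k n) (S n) A (κ A))
        (om (p n) (k n) A) {ω : Cfg | ¬ NCa Φ (p n) (k n) (S n) (δ n) r' s r₃ A (κ A) ∧
          ω ∈ NSc C (p n) (k n) (S n) (δ n) r s A (κ A) true}}.indicator (1 : Hst → ℝ)) A +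
      ({A | min η (ε' / 3) < FK.Pr (2 * Real.cos μ) (dk (p n) (k n) (S n) A (κ A))
        (om (p n) (k n) A) {ω : Cfg | ¬ NCa Φ (p n) (k n) (S n) (δ n) r' s r₃ A (κ A) ∧
          ω ∈ NSc C (p n) (k n) (S n) (δ n) r s A (κ A) false}}.indicator (1 : Hst → ℝ)) A) +
      ({A | Ret Φ δ N k p n r₁ r₂ A}.indicator (1 : Hst → ℝ)) A := by
    intro A hA
    have hA1 : A ⊆ edges (S n) := (H411.mem_Qc (p := p n) (k := k n) (δ := δ n)).1 hA
    have i0 : ∀ s : Set Hst, 0 ≤ s.indicator (1 : Hst → ℝ) A := fun s =>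
      Set.indicator_nonneg (fun _ _ => zero_le_one) _
    by_cases hbad : ∀ c, prNS μ C (p n) (k n) (S n) (δ n) r s A (κ A) c ≤ η
    · rw [Set.indicator_of_notMem (by simpa using hbad)]
      exact add_nonneg (add_nonneg (i0 _) (i0 _)) (i0 _)
    · rw [Set.indicator_of_mem (by simpa using hbad), Pi.one_apply]
      by_cases hR : Ret Φ δ N k p n r₁ r₂ A
      · rw [Set.indicator_of_mem (s := {A | Ret Φ δ N k p n r₁ r₂ A}) hR, Pi.one_apply]
        linarith [i0 {A | min η (ε' / 3) < FK.Pr (2 * Real.cos μ) (dk (p n) (k n) (S n) A (κ A))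
          (om (p n) (k n) A) {ω : Cfg | ¬ NCa Φ (p n) (k n) (S n) (δ n) r' s r₃ A (κ A) ∧
          ω ∈ NSc C (p n) (k n) (S n) (δ n) r s A (κ A) true}},
          i0 {A | min η (ε' / 3) < FK.Pr (2 * Real.cos μ) (dk (p n) (k n) (S n) A (κ A))
          (om (p n) (k n) A) {ω : Cfg | ¬ NCa Φ (p n) (k n) (S n) (δ n) r' s r₃ A (κ A) ∧
          ω ∈ NSc C (p n) (k n) (S n) (δ n) r s A (κ A) false}}]
      · push Not at hbad
        obtain ⟨c, hc⟩ := hbad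
        have hNC : ¬ NCa Φ (p n) (k n) (S n) (δ n) r' s r₃ A (κ A) := by
          rintro ⟨z, hz, c', u, w, hC⟩
          have hlen : κ A ≤ len (p n) (k n) A + 1 := by
            have h6 : κ A < nu (p n) (k n) A := (hκ.2 A hA).1
            unfold nu at h6
            omega
          exact g2 A hA1 (κ A) hlen hR z hz c' u w hC
        have hset : ∀ c, {ω : Cfg | ¬ NCa Φ (p n) (k n) (S n) (δ n) r' s r₃ A (κ A) ∧
            ω ∈ NSc C (p n) (k n) (S n) (δ n) r s A (κ A) c} =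
            NSc C (p n) (k n) (S n) (δ n) r s A (κ A) c := fun c => by
          ext ω
          simp only [Set.mem_ofPred_eq]
          exact and_iff_right hNC
        have hpr : min η (ε' / 3) < FK.Pr (2 * Real.cos μ) (dk (p n) (k n) (S n) A (κ A))
            (om (p n) (k n) A) {ω : Cfg | ¬ NCa Φ (p n) (k n) (S n) (δ n) r' s r₃ A (κ A) ∧
              ω ∈ NSc C (p n) (k n) (S n) (δ n) r s A (κ A) c} := by
          rw [hset]
          refine lt_of_le_of_lt (min_le_left _ _) (lt_of_lt_of_eq hc ?_)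
          cases c <;> rfl
        cases c
        · rw [Set.indicator_of_mem (s := {A | min η (ε' / 3) < FK.Pr (2 * Real.cos μ)
            (dk (p n) (k n) (S n) A (κ A)) (om (p n) (k n) A)
            {ω : Cfg | ¬ NCa Φ (p n) (k n) (S n) (δ n) r' s r₃ A (κ A) ∧
              ω ∈ NSc C (p n) (k n) (S n) (δ n) r s A (κ A) false}}) hpr, Pi.one_apply]
          linarith [i0 {A | min η (ε' / 3) < FK.Pr (2 * Real.cos μ)
            (dk (p n) (k n) (S n) A (κ A)) (om (p n) (k n) A)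
            {ω : Cfg | ¬ NCa Φ (p n) (k n) (S n) (δ n) r' s r₃ A (κ A) ∧
              ω ∈ NSc C (p n) (k n) (S n) (δ n) r s A (κ A) true}},
            i0 {A | Ret Φ δ N k p n r₁ r₂ A}]
        · rw [Set.indicator_of_mem (s := {A | min η (ε' / 3) < FK.Pr (2 * Real.cos μ)
            (dk (p n) (k n) (S n) A (κ A)) (om (p n) (k n) A)
            {ω : Cfg | ¬ NCa Φ (p n) (k n) (S n) (δ n) r' s r₃ A (κ A) ∧
              ω ∈ NSc C (p n) (k n) (S n) (δ n) r s A (κ A) true}}) hpr, Pi.one_apply]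
          linarith [i0 {A | min η (ε' / 3) < FK.Pr (2 * Real.cos μ)
            (dk (p n) (k n) (S n) A (κ A)) (om (p n) (k n) A)
            {ω : Cfg | ¬ NCa Φ (p n) (k n) (S n) (δ n) r' s r₃ A (κ A) ∧
              ω ∈ NSc C (p n) (k n) (S n) (δ n) r s A (κ A) false}},
            i0 {A | Ret Φ δ N k p n r₁ r₂ A}]
  refine (QE.exW_mono hf hw hle).trans ?_
  rw [QE.exW_add hf, QE.exW_add hf]
  have k1 := key true
  have k2 := key false
  linarith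

/-- **[BAD]** from the inclusion. -/
theorem b_bad {μ : ℝ} (h0 : 0 < μ) (h1 : μ < Real.pi / 3)
    (hb3 : ∀ {Φ : (ℝ × ℝ) ≃ₜ (ℝ × ℝ)} {ψ : ℂ → ℂ} {δ : ℕ → ℝ} {N k : ℕ → ℕ}
      {p : ∀ n, ZMod (N n) → ℤ × ℤ} {S : ℕ → Finset (ℤ × ℤ)} {ψn : ℕ → ℂ → ℂ},
      Set6 Φ ψ δ N k p S ψn → P_b3 Φ δ N k p S)
    (hinc : Blk fun Φ _ δ N k p S ψn T R => ∃ ρ : ℝ, 0 < ρ ∧ ∀ C : Cst, C.T = T → C.R = R →
      C.Sm ρ → P_inc Φ C δ N k p S ψn) : B_bad μ := by
  intro Φ ψ δ N k p S ψn H hK T R hT hR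
  obtain ⟨ρ, hρ, h⟩ := hinc Φ ψ δ N k p S ψn H hK T R hT hR
  exact ⟨ρ, hρ, fun C h2 h3 h4 => bad_of h0 h1 H C (h C h2 h3 h4) (hb3 H)⟩

end Vale.Agent.P167.H167.BAD
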