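import Vale.Agent.P167.H174.BD.Lit

/-!
# P167, general `q`, [BAD]: the literal form of the inclusion

`NSc` : the long clusters of frozen squares, `NCa` : conflict pairs near `a`, `P_inc` : a long cluster
of frozen squares, and no conflict pair near `a`, give three strands, or two strands and the boundary,
in one of the boxes.
-/

set_option autoImplicit false

namespace Vale.Agent.P167.H167.BAD

open Filter Topology Set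
open Vale.Agent.P167.E6 Vale.Agent.P167.E2
open Vale.Agent.P153.M1 (Expl)
open Vale.Agent.P167.QT
open Vale.Agent.P167.H192 (ro)
open Vale.Agent.P167.H411 (exn Set6)
open Vale.Agent.P167.H174 (bc)
open Vale.Agent.P167.H718 (Dq)
open Vale.Agent.P167.H72.SD (dk om NSup NSlo Ff)
open Vale.Agent.P167.H713.Q (Cfl)
open Vale.Agent.P167.H446.G
open Vale.Agent.P167.H174.CT (NearC thk rep T32 Far)

/-- The event that there is a long cluster of frozen squares. -/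
noncomputable def NSc {n : ℕ} (C : Cst) (p : ZMod n → ℤ × ℤ) (k : ℕ) (S : Finset (ℤ × ℤ))
    (δ r s : ℝ) (A : Hst) (j : ℕ) (c : Bool) : Set Cfg :=
  if c then NSup (dk p k S A j) (bad p k S δ r s A j true) (FK.Bq (vd p k C.Ld s δ) (mb C.m δ))
  else NSlo (dk p k S A j) (om p k A) (bad p k S δ r s A j false)
    (Ff (ro (p k)) (mq C.Lc s δ + 1) ((vd p k C.Ld s δ).1 - mb C.m δ)
      ((vd p k C.Ld s δ).1 + mb C.m δ) ((vd p k C.Ld s δ).2 - mb C.m δ)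
      ((vd p k C.Ld s δ).2 + mb C.m δ))

/-- There is a conflict pair near `a`. -/
def NCa {n : ℕ} (Φ : (ℝ × ℝ) ≃ₜ (ℝ × ℝ)) (p : ZMod n → ℤ × ℤ) (k : ℕ) (S : Finset (ℤ × ℤ))
    (δ r s r₃ : ℝ) (A : Hst) (j : ℕ) : Prop :=
  ∃ z : ℤ × ℤ, dist ((δ : ℂ) * H174.CT.ps z) (bc Φ 0) ≤ r₃ ∧ ∃ (c : Bool) (u w : ℂ),
    Cfl p k S A j δ c z (rS s δ) (rR r δ) u w

section

variable (Φ : (ℝ × ℝ) ≃ₜ (ℝ × ℝ)) (C : Cst) (δ : ℕ → ℝ) (N k : ℕ → ℕ)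
  (p : ∀ n, ZMod (N n) → ℤ × ℤ) (S : ℕ → Finset (ℤ × ℤ)) (ψn : ℕ → ℂ → ℂ)

/-- **(INC)** (825) The inclusion: a long cluster of frozen squares, and no conflict pair near `a`, give
three strands, or two strands and the boundary, in one of the boxes of the family `Z`. -/
def P_inc : Prop := ∀ r : ℝ, 0 < r → ∃ r' : ℝ, 0 < r' ∧ ∀ r₃ : ℝ, 0 < r₃ → ∃ ρ L : ℝ, 0 < ρ ∧
  0 < L ∧ ∀ K R₁ : ℝ, 8 ≤ K → 0 < R₁ → ∃ R₂ : ℝ, 0 < R₂ ∧ R₂ ≤ R₁ ∧ ∀ η : ℝ, 0 < η → ∃ s₀ : ℝ, 0 < s₀ ∧ ∀ s : ℝ, 0 < s →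
  s ≤ s₀ → ∀ᶠ n in atTop, ∀ (Z : Finset (ℤ × ℤ)) (col : ℤ × ℤ → Bool),
    (∀ z ∈ Z, Far Φ (ρ / 2) ((δ n : ℂ) * H174.CT.ps z) ∧
      NearC (p n) (k n) z ⌊R₂ / δ n⌋ (col z)) →
    (∀ v : ℤ × ℤ, ‖(δ n : ℂ) * H174.CT.ps v‖ ≤ L → Far Φ ρ ((δ n : ℂ) * H174.CT.ps v) →
      ∃ z ∈ Z, v ∈ FK.Bq z ⌊R₂ / (K * δ n)⌋) →
    ∀ (A : Hst) (j : ℕ), Bef (exn δ N k p S ψn n) C.T C.R A j →
      ¬ NCa Φ (p n) (k n) (S n) (δ n) r' s r₃ A j → ∀ c : Bool,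
      om (p n) (k n) A ∈ NSc C (p n) (k n) (S n) (δ n) r s A j c → ∃ z ∈ Z,
        rep (Dq (S n) (p n) (k n)) (thk (p n) (k n) (S n) z ⌊R₂ / δ n⌋ (col z))
          (om (p n) (k n) A) ∈ T32 (Dq (S n) (p n) (k n)) (col z) z (2 * ⌊R₂ / (K * δ n)⌋)
            ⌊R₂ / δ n⌋ ⌊η / δ n⌋₊

end

end Vale.Agent.P167.H167.BAD
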